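import Vale.Agent.P269.G1.H410.BTools

/-!
# [DB2] WDVV
-/

namespace Vale.Agent.P269.G1.H410

open Finset.HasAntidiagonal (antidiagonal)
open Vale.Agent.P269.CI Vale.Agent.P269.G1

variable {X : CompleteIntersection} {F : ℕ → ℕ → List (Ins X) → ℂ} {n : ℕ} (E : Fam X n)

lemma CB_fst (h1 : IsGenusOne F) (x : Fin (X.dim + 1) → RB n) (c b : Fin (X.dim + 1)) :
    (CB E h1 x).1 c b = ∑ j, x j * qB E F j b c := rfl

lemma CB_snd (h1 : IsGenusOne F) (x : Fin (X.dim + 1) → RB n) (v : X.Prim) :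
    (CB E h1 x).2 v = ∑ j, x j * lB E h1 j := rfl

lemma actB_apply (a : OB X n) (x : Fin (X.dim + 1) → RB n) (c : Fin (X.dim + 1)) :
    actB X n a x c = ∑ b, a.1 c b * x b := rfl

lemma actB_CB (h1 : IsGenusOne F) (x y : Fin (X.dim + 1) → RB n) (c : Fin (X.dim + 1)) :
    actB X n (CB E h1 x) y c = ∑ j, ∑ b, x j * y b * qB E F j b c := by
  rw [actB_apply, Finset.sum_comm]
  refine Finset.sum_congr rfl fun b _ => ?_
  rw [CB_fst, Finset.sum_mul]
  exact Finset.sum_congr rfl fun j _ => by ring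

/-- **[DB2]** WDVV -/
theorem CB_comm (hF : IsGW X F) (h1 : IsGenusOne F) (x y : Fin (X.dim + 1) → RB n) :
    actB X n (CB E h1 x) y = actB X n (CB E h1 y) x := by
  funext c
  rw [actB_CB, actB_CB, Finset.sum_comm]
  refine Finset.sum_congr rfl fun j _ => Finset.sum_congr rfl fun b _ => ?_
  rw [qB_comm E hF]
  ring

/-- WDVV with ambient classes -/
lemma WDB_amb (hF : IsGW X F) (h1 : IsGenusOne F) (a x y z : Fin (X.dim + 1)) :
    WDB E F (Sum.inl a) (Sum.inl x) (Sum.inl y) (Sum.inl z) =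
      ∑ k, qB E F a z k * sr E (cor F 0 [hpow X k, hpow X x, hpow X y]) := by
  rw [WDB, Fintype.sum_sum_type]
  have h2 : ∑ u : X.Prim, ∑ β, pairingInv X (Sum.inr u) β •
      (sr E (cor F 0 [(β, 0), (Sum.inl x, 0), (Sum.inl y, 0)]) *
        sr E (cor F 0 [(Sum.inl a, 0), (Sum.inr u, 0), (Sum.inl z, 0)])) = 0 := by
    refine Finset.sum_eq_zero fun u _ => Finset.sum_eq_zero fun β _ => ?_
    rw [srp2 E hF h1, mul_zero, smul_zero]
  rw [h2, add_zero]
  have h3 : ∀ l : Fin (X.dim + 1), ∑ β, pairingInv X (Sum.inl l) β •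
      (sr E (cor F 0 [(β, 0), (Sum.inl x, 0), (Sum.inl y, 0)]) *
        sr E (cor F 0 [(Sum.inl a, 0), (Sum.inl l, 0), (Sum.inl z, 0)])) =
      ∑ k : Fin (X.dim + 1), pairingInv X (Sum.inl l) (Sum.inl k) •
        (sr E (cor F 0 [hpow X k, hpow X x, hpow X y]) *
          sr E (cor F 0 [hpow X a, hpow X z, hpow X l])) := by
    intro l
    rw [Fintype.sum_sum_type]
    have h4 : ∑ u : X.Prim, pairingInv X (Sum.inl l) (Sum.inr u) •
        (sr E (cor F 0 [(Sum.inr u, 0), (Sum.inl x, 0), (Sum.inl y, 0)]) *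
          sr E (cor F 0 [(Sum.inl a, 0), (Sum.inl l, 0), (Sum.inl z, 0)])) = 0 := by
      refine Finset.sum_eq_zero fun u _ => ?_
      rw [srp1 E h1, zero_mul, smul_zero]
    rw [h4, add_zero]
    refine Finset.sum_congr rfl fun k _ => ?_
    have e := sr_swap_even E hF 0 [hpow X a] [] (hpow X l) (hpow X z) (Or.inl ⟨l, rfl⟩)
    simp only [List.cons_append, List.nil_append] at e
    rw [← e]
    rfl
  rw [Finset.sum_congr rfl fun l _ => h3 l, Finset.sum_comm]
  refine Finset.sum_congr rfl fun k _ => ?_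
  rw [qB, Finset.sum_mul]
  refine Finset.sum_congr rfl fun l _ => ?_
  rw [smul_mul_assoc, mul_comm]

/-- associativity of the structure constants -/
lemma qB_assoc (hF : IsGW X F) (h1 : IsGenusOne F) (i j l m : Fin (X.dim + 1)) :
    ∑ k, qB E F i j k * qB E F k l m = ∑ k, qB E F j l k * qB E F i k m := by
  have e1 : ∀ i j l : Fin (X.dim + 1), ∑ k, qB E F i j k * qB E F k l m =
      ∑ s : Fin (X.dim + 1), pairingInv X (Sum.inl s) (Sum.inl m) •
        WDB E F (Sum.inl i) (Sum.inl s) (Sum.inl l) (Sum.inl j) := by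
    intro i j l
    simp only [WDB_amb E hF h1]
    simp only [Finset.smul_sum]
    rw [Finset.sum_comm]
    refine Finset.sum_congr rfl fun k _ => ?_
    rw [show qB E F k l m = ∑ s : Fin (X.dim + 1), pairingInv X (Sum.inl s) (Sum.inl m) •
      sr E (cor F 0 [hpow X k, hpow X l, hpow X s]) from rfl, Finset.mul_sum]
    refine Finset.sum_congr rfl fun s _ => ?_
    have e := sr_swap_even E hF 0 [hpow X k] [] (hpow X l) (hpow X s) (Or.inl ⟨l, rfl⟩)
    simp only [List.cons_append, List.nil_append] at e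
    rw [e, mul_smul_comm]
  have e2 : ∑ k, qB E F j l k * qB E F i k m = ∑ k, qB E F l j k * qB E F k i m := by
    refine Finset.sum_congr rfl fun k _ => ?_
    rw [qB_comm E hF j l, qB_comm E hF i k]
  -- `(e_i e_j) e_l = (e_l e_j) e_i`
  rw [e2, e1, e1]
  refine Finset.sum_congr rfl fun s _ => ?_
  congr 1
  -- WD(i; s, l | j) = WD(j; s, l | i) = WD(j; s, i | l) = WD(l; s, i | j)
  have sym : ∀ a x y z : Fin (X.dim + 1),
      WDB E F (Sum.inl a) (Sum.inl x) (Sum.inl y) (Sum.inl z) =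
        WDB E F (Sum.inl z) (Sum.inl x) (Sum.inl y) (Sum.inl a) := by
    intro a x y z
    rw [WDB_amb E hF h1, WDB_amb E hF h1]
    exact Finset.sum_congr rfl fun k _ => by rw [qB_comm E hF]
  have sw := WDB_swap E hF (Sum.inl j) (Sum.inl s) (Sum.inl l) (Sum.inl i)
  have hs : sgn (par X (Sum.inl l)) (par X (Sum.inl i)) = 1 := by
    simp [sgn, par]
  rw [hs, one_smul] at sw
  rw [sym i s l j, sw, sym j s i l]

/-- the eigenvalue is multiplicative -/
lemma lB_mul (hF : IsGW X F) (h1 : IsGenusOne F) (v : X.Prim) (i j : Fin (X.dim + 1)) :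
    lB E h1 i * lB E h1 j = ∑ k, qB E F i j k * lB E h1 k := by
  obtain ⟨w, hvw⟩ := exists_form_neB v
  have e1 := WDB_swap E hF (Sum.inl i) (Sum.inr v) (Sum.inr w) (Sum.inl j)
  have e2 : sgn (par X (Sum.inr w)) (par X (Sum.inl j)) = 1 := by simp [sgn, par]
  rw [e2, one_smul] at e1
  have e3 : WDB E F (Sum.inl i) (Sum.inr v) (Sum.inr w) (Sum.inl j) =
      X.form v w • ∑ k, qB E F i j k * lB E h1 k := by
    rw [WDB, Fintype.sum_sum_type]
    have h2 : ∑ u : X.Prim, ∑ β, pairingInv X (Sum.inr u) β •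
        (sr E (cor F 0 [(β, 0), (Sum.inr v, 0), (Sum.inr w, 0)]) *
          sr E (cor F 0 [(Sum.inl i, 0), (Sum.inr u, 0), (Sum.inl j, 0)])) = 0 := by
      refine Finset.sum_eq_zero fun u _ => Finset.sum_eq_zero fun β _ => ?_
      rw [srp2 E hF h1, mul_zero, smul_zero]
    rw [h2, add_zero]
    have h3 : ∀ l : Fin (X.dim + 1), ∑ β, pairingInv X (Sum.inl l) β •
        (sr E (cor F 0 [(β, 0), (Sum.inr v, 0), (Sum.inr w, 0)]) *
          sr E (cor F 0 [(Sum.inl i, 0), (Sum.inl l, 0), (Sum.inl j, 0)])) =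
        ∑ k : Fin (X.dim + 1), pairingInv X (Sum.inl l) (Sum.inl k) •
          ((X.form v w • lB E h1 k) * sr E (cor F 0 [hpow X i, hpow X j, hpow X l])) := by
      intro l
      rw [Fintype.sum_sum_type]
      have h4 : ∑ u : X.Prim, pairingInv X (Sum.inl l) (Sum.inr u) •
        (sr E (cor F 0 [(Sum.inr u, 0), (Sum.inr v, 0), (Sum.inr w, 0)]) *
          sr E (cor F 0 [(Sum.inl i, 0), (Sum.inl l, 0), (Sum.inl j, 0)])) = 0 := by
        refine Finset.sum_eq_zero fun u _ => ?_
        rw [sr_prim3 E h1, zero_mul, smul_zero]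
      rw [h4, add_zero]
      refine Finset.sum_congr rfl fun k _ => ?_
      have e := sr_swap_even E hF 0 [hpow X i] [] (hpow X l) (hpow X j) (Or.inl ⟨l, rfl⟩)
      simp only [List.cons_append, List.nil_append] at e
      rw [srq3 E hF h1, ← e]
      rfl
    rw [Finset.sum_congr rfl fun l _ => h3 l, Finset.sum_comm, Finset.smul_sum]
    refine Finset.sum_congr rfl fun k _ => ?_
    rw [qB, Finset.sum_mul, Finset.smul_sum]
    refine Finset.sum_congr rfl fun l _ => ?_
    rw [smul_mul_assoc, smul_mul_assoc, smul_comm, mul_comm (lB E h1 k)]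
  have e4 : WDB E F (Sum.inl i) (Sum.inr v) (Sum.inl j) (Sum.inr w) =
      X.form v w • (lB E h1 i * lB E h1 j) := by
    rw [WDB, Fintype.sum_sum_type]
    have h2 : ∑ l : Fin (X.dim + 1), ∑ β, pairingInv X (Sum.inl l) β •
        (sr E (cor F 0 [(β, 0), (Sum.inr v, 0), (Sum.inl j, 0)]) *
          sr E (cor F 0 [(Sum.inl i, 0), (Sum.inl l, 0), (Sum.inr w, 0)])) = 0 := by
      refine Finset.sum_eq_zero fun l _ => Finset.sum_eq_zero fun β _ => ?_
      rw [srp3 E hF h1, mul_zero, smul_zero]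
    rw [h2, zero_add]
    have h3 : ∀ a : X.Prim, ∑ β, pairingInv X (Sum.inr a) β •
        (sr E (cor F 0 [(β, 0), (Sum.inr v, 0), (Sum.inl j, 0)]) *
          sr E (cor F 0 [(Sum.inl i, 0), (Sum.inr a, 0), (Sum.inr w, 0)])) =
        ∑ b : X.Prim, ((Matrix.of X.form)⁻¹ a b * X.form b v * X.form a w) •
          (lB E h1 i * lB E h1 j) := by
      intro a
      rw [Fintype.sum_sum_type]
      have h4 : ∑ l : Fin (X.dim + 1), pairingInv X (Sum.inr a) (Sum.inl l) •
        (sr E (cor F 0 [(Sum.inl l, 0), (Sum.inr v, 0), (Sum.inl j, 0)]) *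
          sr E (cor F 0 [(Sum.inl i, 0), (Sum.inr a, 0), (Sum.inr w, 0)])) = 0 := by
        refine Finset.sum_eq_zero fun l _ => ?_
        rw [srp2 E hF h1, zero_mul, smul_zero]
      rw [h4, zero_add]
      refine Finset.sum_congr rfl fun b _ => ?_
      rw [srq1 E h1, srq3 E hF h1, smul_mul_smul_comm, smul_smul, mul_comm (lB E h1 j)]
      congr 1
      change (Matrix.of X.form)⁻¹ a b * _ = _
      ring
    rw [Finset.sum_congr rfl fun a _ => h3 a]
    simp only [← Finset.sum_smul]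
    congr 1
    simp only [← Finset.sum_mul]
    have h5 : ∀ a, ∑ b, (Matrix.of X.form)⁻¹ a b * X.form b v = if a = v then 1 else 0 := by
      intro a
      have h6 : (Matrix.of X.form)⁻¹ * Matrix.of X.form = 1 :=
        Matrix.nonsing_inv_mul _ (isUnit_iff_ne_zero.2 X.form_nondeg)
      have := congrFun (congrFun h6 a) v
      rw [Matrix.mul_apply, Matrix.one_apply] at this
      exact this
    simp only [h5]
    simp
  rw [e3, e4] at e1
  have e5 := congrArg (fun z => (X.form v w)⁻¹ • z) e1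
  simp only [inv_smul_smul₀ hvw] at e5
  exact e5.symm

/-- **[DB2]** -/
theorem CB_mul (hF : IsGW X F) (h1 : IsGenusOne F) (x y : Fin (X.dim + 1) → RB n) :
    CB E h1 (actB X n (CB E h1 x) y) = CB E h1 x * CB E h1 y := by
  refine Prod.ext ?_ ?_
  · refine Matrix.ext fun c b => ?_
    rw [CB_fst]
    have hR : (CB E h1 x * CB E h1 y).1 c b =
        ∑ d, (CB E h1 x).1 c d * (CB E h1 y).1 d b := by
      rw [Prod.fst_mul, Matrix.mul_apply]
    rw [hR]
    have eL : ∑ j, actB X n (CB E h1 x) y j * qB E F j b c =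
        ∑ l, ∑ k, x l * y k * ∑ j, qB E F l k j * qB E F j b c := by
      simp only [actB_CB, Finset.sum_mul, Finset.mul_sum]
      rw [Finset.sum_comm]
      refine Finset.sum_congr rfl fun l _ => ?_
      rw [Finset.sum_comm]
      refine Finset.sum_congr rfl fun k _ => Finset.sum_congr rfl fun j _ => ?_
      ring
    have eR : ∑ d, (CB E h1 x).1 c d * (CB E h1 y).1 d b =
        ∑ l, ∑ k, x l * y k * ∑ d, qB E F k b d * qB E F l d c := by
      have h9 : ∀ d, (CB E h1 x).1 c d * (CB E h1 y).1 d b =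
          ∑ l, ∑ k, x l * y k * (qB E F k b d * qB E F l d c) := by
        intro d
        rw [CB_fst, CB_fst, Finset.sum_mul_sum]
        refine Finset.sum_congr rfl fun l _ => Finset.sum_congr rfl fun k _ => ?_
        ring
      simp only [h9, Finset.mul_sum]
      rw [Finset.sum_comm]
      refine Finset.sum_congr rfl fun l _ => ?_
      rw [Finset.sum_comm]
    rw [eL, eR]
    refine Finset.sum_congr rfl fun l _ => Finset.sum_congr rfl fun k _ => ?_
    rw [qB_assoc E hF h1]
  · funext v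
    rw [CB_snd]
    have hR : (CB E h1 x * CB E h1 y).2 v = (CB E h1 x).2 v * (CB E h1 y).2 v := rfl
    rw [hR, CB_snd, CB_snd, Finset.sum_mul_sum]
    simp only [actB_CB, Finset.sum_mul]
    rw [Finset.sum_comm]
    refine Finset.sum_congr rfl fun l _ => ?_
    rw [Finset.sum_comm]
    refine Finset.sum_congr rfl fun k _ => ?_
    have h3 : ∀ j, x l * y k * qB E F l k j * lB E h1 j =
        x l * y k * (qB E F l k j * lB E h1 j) := fun j => by ring
    simp only [h3]
    rw [← Finset.mul_sum, ← lB_mul E hF h1 v]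
    ring

end Vale.Agent.P269.G1.H410
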