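import Vale.Agent.P269.G1.H410.Lamc

/-!
# [c8b] WDVV with primitive classes
-/

namespace Vale.Agent.P269.G1.H410

open Finset.HasAntidiagonal (antidiagonal)
open Vale.Agent.P269.CI Vale.Agent.P269.G1

variable {X : CompleteIntersection} {F : ℕ → ℕ → List (Ins X) → ℂ}

lemma shuffle_congr (L : List (Fin (X.dim + 1))) {A A' B B' : List (Ins X) → ℂ}
    (hA : ∀ M : List (Fin (X.dim + 1)), A (M.map (hpow X)) = A' (M.map (hpow X)))
    (hB : ∀ M : List (Fin (X.dim + 1)), B (M.map (hpow X)) = B' (M.map (hpow X))) :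
    shuffle X (L.map (hpow X)) A B = shuffle X (L.map (hpow X)) A' B' := by
  rw [H598.shuffle_hpow, H598.shuffle_hpow]
  exact H598.shf_congr L hA hB

lemma shuffle_smul_left (c : ℂ) (L : List (Ins X)) : ∀ (A B : List (Ins X) → ℂ),
    shuffle X L (fun M => c * A M) B = c * shuffle X L A B := by
  induction L with
  | nil => intro A B; simp [shuffle, mul_assoc]
  | cons x L ih =>
    intro A B
    rw [shuffle, shuffle, mul_add, ← ih, ← ih]
    congr 2
    funext M
    ring

/-- one side of WDVV -/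
noncomputable def wd (F : ℕ → ℕ → List (Ins X) → ℂ) (a x y z : Ix X) (d : ℕ)
    (L : List (Ins X)) : ℂ :=
  ∑ α, ∑ β, pairingInv X α β * mulS (cor F 0 [(β, 0), (x, 0), (y, 0)])
    (cor F 0 [(a, 0), (α, 0), (z, 0)]) d L

/-- the symmetric side -/
noncomputable def wd' (F : ℕ → ℕ → List (Ins X) → ℂ) (a x y z : Ix X) (d : ℕ)
    (L : List (Ins X)) : ℂ :=
  ∑ α, ∑ β, pairingInv X α β * mulS (cor F 0 [(β, 0), (x, 0), (y, 0), (z, 0)])
    (cor F 0 [(a, 0), (α, 0)]) d L

lemma trr_wd (hF : IsGW X F) (a x y z : Ix X) (d : ℕ) (L : List (Fin (X.dim + 1))) :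
    F 0 d ((a, 1) :: (x, 0) :: (y, 0) :: (z, 0) :: L.map (hpow X)) =
      wd' F a x y z d (L.map (hpow X)) + wd F a x y z d (L.map (hpow X)) := by
  rw [hF.trr d a 0 (x, 0) (y, 0) ((z, 0) :: L.map (hpow X)), wd, wd', ← Finset.sum_add_distrib]
  refine Finset.sum_congr rfl fun α _ => ?_
  rw [← Finset.sum_add_distrib]
  refine Finset.sum_congr rfl fun β _ => ?_
  rw [← mul_add, mulS, mulS, ← Finset.sum_add_distrib]
  congr 1
  refine Finset.sum_congr rfl fun e _ => ?_
  rw [shuffle]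
  congr 1
  apply shuffle_congr
  · intro M
    have h1 : sgnL X (par X ((z, 0) : Ins X).1) (M.map (hpow X)) = 1 := H598.sgnL_hpow _ _
    rw [h1, one_mul]
    rfl
  · intro M
    rfl

lemma wd'_swap (hF : IsGW X F) (a x y z : Ix X) (d : ℕ) (L : List (Fin (X.dim + 1))) :
    wd' F a x y z d (L.map (hpow X)) =
      sgn (par X y) (par X z) * wd' F a x z y d (L.map (hpow X)) := by
  rw [wd', wd', Finset.mul_sum]
  refine Finset.sum_congr rfl fun α _ => ?_
  rw [Finset.mul_sum]
  refine Finset.sum_congr rfl fun β _ => ?_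
  rw [mul_left_comm]
  congr 1
  rw [mulS, mulS, Finset.mul_sum]
  refine Finset.sum_congr rfl fun e _ => ?_
  rw [← shuffle_smul_left]
  apply shuffle_congr
  · intro M
    exact hF.symm 0 e.1 [(β, 0), (x, 0)] (M.map (hpow X)) (y, 0) (z, 0)
  · intro M
    rfl

lemma wd_swap (hF : IsGW X F) (a x y z : Ix X) (d : ℕ) (L : List (Fin (X.dim + 1))) :
    wd F a x y z d (L.map (hpow X)) =
      sgn (par X y) (par X z) * wd F a x z y d (L.map (hpow X)) := by
  have h1 := trr_wd hF a x y z d L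
  have h2 := trr_wd hF a x z y d L
  have h3 := hF.symm 0 d [(a, 1), (x, 0)] (L.map (hpow X)) (y, 0) (z, 0)
  have h4 := wd'_swap hF a x y z d L
  simp only [List.cons_append, List.nil_append] at h3
  rw [h1, h2, h4, mul_add] at h3
  linear_combination h3

lemma ser_add (A B : ℕ → List (Ins X) → ℂ) :
    ser (fun d L => A d L + B d L) = ser A + ser B := by
  rw [ser, ser, ser, ← toSer_add]
  congr 1

lemma ser_smul (c : ℂ) (A : ℕ → List (Ins X) → ℂ) :
    ser (fun d L => c * A d L) = c • ser A := by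
  refine MvPowerSeries.ext fun α => ?_
  rw [ser, H598.coeff_toSer]
  have h1 : MvPowerSeries.coeff α (c • ser A) = c • MvPowerSeries.coeff α (ser A) := rfl
  rw [h1, ser, H598.coeff_toSer, smul_comm]
  congr 1

lemma ser_zero : ser (fun (_ : ℕ) (_ : List (Ins X)) => (0 : ℂ)) = 0 := by
  have := ser_smul (X := X) 0 (fun _ _ => 0)
  simpa using this

lemma ser_sum {ι : Type*} (s : Finset ι) (A : ι → ℕ → List (Ins X) → ℂ) :
    ser (fun d L => ∑ i ∈ s, A i d L) = ∑ i ∈ s, ser (A i) := by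
  classical
  induction s using Finset.induction_on with
  | empty => simpa using ser_zero (X := X)
  | insert a s ha ih =>
    rw [Finset.sum_insert ha, ← ih, ← ser_add]
    simp only [Finset.sum_insert ha]

/-- the series of one side of WDVV -/
noncomputable def WD (F : ℕ → ℕ → List (Ins X) → ℂ) (a x y z : Ix X) : RR X :=
  ∑ α, ∑ β, pairingInv X α β • (ser (cor F 0 [(β, 0), (x, 0), (y, 0)]) *
    ser (cor F 0 [(a, 0), (α, 0), (z, 0)]))

lemma WD_eq (hF : IsGW X F) (a x y z : Ix X) : WD F a x y z = ser (wd F a x y z) := by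
  have h1 : wd F a x y z = fun d L => ∑ α, ∑ β, pairingInv X α β *
    mulS (cor F 0 [(β, 0), (x, 0), (y, 0)]) (cor F 0 [(a, 0), (α, 0), (z, 0)]) d L := rfl
  rw [h1, ser_sum, WD]
  refine Finset.sum_congr rfl fun α _ => ?_
  rw [ser_sum]
  refine Finset.sum_congr rfl fun β _ => ?_
  rw [ser_smul]
  congr 1
  exact (H598.ser_mulS _ _ (symS_cor hF 0 _) (symS_cor hF 0 _)).symm

lemma WD_swap (hF : IsGW X F) (a x y z : Ix X) :
    WD F a x y z = sgn (par X y) (par X z) • WD F a x z y := by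
  rw [WD_eq hF, WD_eq hF, ← ser_smul]
  exact ser_congr fun d L => wd_swap hF a x y z d L

/-- two primitive classes -/
lemma cor_prim (h1 : IsGenusOne F) (v w : X.Prim) (k : Fin (X.dim + 1)) :
    ser (cor F 0 [(Sum.inr v, 0), (Sum.inr w, 0), (Sum.inl k, 0)]) = X.form v w • lamc h1 k := by
  rw [lamc_eq, ← ser_smul]
  exact ser_congr fun d L => Lam_spec h1 d v w _ (isAmb_cons (isAmb_map L))

lemma cor_prim' (hF : IsGW X F) (h1 : IsGenusOne F) (v w : X.Prim) (k : Fin (X.dim + 1)) :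
    ser (cor F 0 [(Sum.inr v, 0), (Sum.inl k, 0), (Sum.inr w, 0)]) = X.form v w • lamc h1 k := by
  rw [← cor_prim h1 v w k]
  refine ser_congr fun d L => ?_
  have h2 := hF.symm 0 d [(Sum.inr v, 0)] (L.map (hpow X)) (Sum.inl k, 0) (Sum.inr w, 0)
  have h3 : sgn (par X ((Sum.inl k, 0) : Ins X).1) (par X ((Sum.inr w, 0) : Ins X).1) = 1 :=
    sgn_false_left _
  rw [h3, one_mul] at h2
  exact h2

lemma cor_prim'' (hF : IsGW X F) (h1 : IsGenusOne F) (v w : X.Prim) (k : Fin (X.dim + 1)) :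
    ser (cor F 0 [(Sum.inl k, 0), (Sum.inr v, 0), (Sum.inr w, 0)]) = X.form v w • lamc h1 k := by
  rw [← cor_prim' hF h1 v w k]
  refine ser_congr fun d L => ?_
  have h2 := hF.symm 0 d [] ((Sum.inr w, 0) :: L.map (hpow X)) (Sum.inl k, 0) (Sum.inr v, 0)
  have h3 : sgn (par X ((Sum.inl k, 0) : Ins X).1) (par X ((Sum.inr v, 0) : Ins X).1) = 1 :=
    sgn_false_left _
  rw [h3, one_mul] at h2
  exact h2

/-- one primitive class -/
lemma cor_one (h1 : IsGenusOne F) (v : X.Prim) (i j : Fin (X.dim + 1)) :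
    ser (cor F 0 [(Sum.inr v, 0), (Sum.inl i, 0), (Sum.inl j, 0)]) = 0 := by
  rw [← ser_zero]
  exact ser_congr fun d L => h1.mono1 0 d v 0 _
    (isAmb_cons (i := i) (isAmb_cons (i := j) (isAmb_map L)))

lemma cor_one' (hF : IsGW X F) (h1 : IsGenusOne F) (v : X.Prim) (i j : Fin (X.dim + 1)) :
    ser (cor F 0 [(Sum.inl i, 0), (Sum.inr v, 0), (Sum.inl j, 0)]) = 0 := by
  rw [← cor_one h1 v i j]
  refine ser_congr fun d L => ?_
  have h2 := hF.symm 0 d [] ((Sum.inl j, 0) :: L.map (hpow X)) (Sum.inl i, 0) (Sum.inr v, 0)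
  have h3 : sgn (par X ((Sum.inl i, 0) : Ins X).1) (par X ((Sum.inr v, 0) : Ins X).1) = 1 :=
    sgn_false_left _
  rw [h3, one_mul] at h2
  exact h2

lemma cor_one'' (hF : IsGW X F) (h1 : IsGenusOne F) (v : X.Prim) (i j : Fin (X.dim + 1)) :
    ser (cor F 0 [(Sum.inl i, 0), (Sum.inl j, 0), (Sum.inr v, 0)]) = 0 := by
  rw [← cor_one' hF h1 v i j]
  refine ser_congr fun d L => ?_
  have h2 := hF.symm 0 d [(Sum.inl i, 0)] (L.map (hpow X)) (Sum.inl j, 0) (Sum.inr v, 0)
  have h3 : sgn (par X ((Sum.inl j, 0) : Ins X).1) (par X ((Sum.inr v, 0) : Ins X).1) = 1 :=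
    sgn_false_left _
  rw [h3, one_mul] at h2
  exact h2

/-- three primitive classes -/
lemma cor_three (h1 : IsGenusOne F) (u v w : X.Prim) :
    ser (cor F 0 [(Sum.inr u, 0), (Sum.inr v, 0), (Sum.inr w, 0)]) = 0 := by
  rw [← ser_zero]
  exact ser_congr fun d L => h1.mono3 d u v w _ (isAmb_map L)

lemma form_inv_mul (X : CompleteIntersection) :
    (Matrix.of X.form)⁻¹ * Matrix.of X.form = 1 :=
  Matrix.nonsing_inv_mul _ (isUnit_iff_ne_zero.2 X.form_nondeg)

/-- **[c8]** WDVV with two primitive classes -/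
theorem lamc_mul (hF : IsGW X F) (h1 : IsGenusOne F) (v : X.Prim) (i j : Fin (X.dim + 1)) :
    lamc h1 i * lamc h1 j = ∑ k, qc F i j k * lamc h1 k := by
  obtain ⟨w, hvw⟩ := exists_form_ne v
  have e1 := WD_swap hF (Sum.inl i) (Sum.inr v) (Sum.inr w) (Sum.inl j)
  have e2 : sgn (par X (Sum.inr w)) (par X (Sum.inl j)) = 1 := sgn_false_right _
  rw [e2, one_smul] at e1
  have e3 : WD F (Sum.inl i) (Sum.inr v) (Sum.inr w) (Sum.inl j) =
      X.form v w • ∑ k, qc F i j k * lamc h1 k := by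
    rw [WD, Fintype.sum_sum_type]
    have h2 : ∑ u : X.Prim, ∑ β, pairingInv X (Sum.inr u) β •
        (ser (cor F 0 [(β, 0), (Sum.inr v, 0), (Sum.inr w, 0)]) *
          ser (cor F 0 [(Sum.inl i, 0), (Sum.inr u, 0), (Sum.inl j, 0)])) = 0 := by
      refine Finset.sum_eq_zero fun u _ => Finset.sum_eq_zero fun β _ => ?_
      rw [cor_one' hF h1, mul_zero, smul_zero]
    rw [h2, add_zero]
    have h3 : ∀ l : Fin (X.dim + 1), ∑ β, pairingInv X (Sum.inl l) β •
        (ser (cor F 0 [(β, 0), (Sum.inr v, 0), (Sum.inr w, 0)]) *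
          ser (cor F 0 [(Sum.inl i, 0), (Sum.inl l, 0), (Sum.inl j, 0)])) =
        ∑ k : Fin (X.dim + 1), pairingInv X (Sum.inl l) (Sum.inl k) •
          ((X.form v w • lamc h1 k) * ser (cor F 0 [hpow X i, hpow X j, hpow X l])) := by
      intro l
      rw [Fintype.sum_sum_type]
      have h4 : ∑ u : X.Prim, pairingInv X (Sum.inl l) (Sum.inr u) •
        (ser (cor F 0 [(Sum.inr u, 0), (Sum.inr v, 0), (Sum.inr w, 0)]) *
          ser (cor F 0 [(Sum.inl i, 0), (Sum.inl l, 0), (Sum.inl j, 0)])) = 0 := by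
        refine Finset.sum_eq_zero fun u _ => ?_
        rw [cor_three h1, zero_mul, smul_zero]
      rw [h4, add_zero]
      refine Finset.sum_congr rfl fun k _ => ?_
      rw [cor_prim'' hF h1]
      congr 2
      refine ser_congr fun d L => ?_
      have h2 := hF.symm 0 d [(Sum.inl i, 0)] (L.map (hpow X)) (Sum.inl l, 0) (Sum.inl j, 0)
      have h3 : sgn (par X ((Sum.inl l, 0) : Ins X).1) (par X ((Sum.inl j, 0) : Ins X).1) = 1 :=
        sgn_false_left _
      rw [h3, one_mul] at h2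
      exact h2
    rw [Finset.sum_congr rfl fun l _ => h3 l, Finset.sum_comm, Finset.smul_sum]
    refine Finset.sum_congr rfl fun k _ => ?_
    rw [qc, Finset.sum_mul, Finset.smul_sum]
    refine Finset.sum_congr rfl fun l _ => ?_
    rw [smul_mul_assoc, smul_mul_assoc, smul_comm, mul_comm (lamc h1 k)]
  have e4 : WD F (Sum.inl i) (Sum.inr v) (Sum.inl j) (Sum.inr w) =
      X.form v w • (lamc h1 i * lamc h1 j) := by
    rw [WD, Fintype.sum_sum_type]
    have h2 : ∑ l : Fin (X.dim + 1), ∑ β, pairingInv X (Sum.inl l) β •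
        (ser (cor F 0 [(β, 0), (Sum.inr v, 0), (Sum.inl j, 0)]) *
          ser (cor F 0 [(Sum.inl i, 0), (Sum.inl l, 0), (Sum.inr w, 0)])) = 0 := by
      refine Finset.sum_eq_zero fun l _ => Finset.sum_eq_zero fun β _ => ?_
      rw [cor_one'' hF h1, mul_zero, smul_zero]
    rw [h2, zero_add]
    have h3 : ∀ a : X.Prim, ∑ β, pairingInv X (Sum.inr a) β •
        (ser (cor F 0 [(β, 0), (Sum.inr v, 0), (Sum.inl j, 0)]) *
          ser (cor F 0 [(Sum.inl i, 0), (Sum.inr a, 0), (Sum.inr w, 0)])) =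
        ∑ b : X.Prim, ((Matrix.of X.form)⁻¹ a b * X.form b v * X.form a w) •
          (lamc h1 i * lamc h1 j) := by
      intro a
      rw [Fintype.sum_sum_type]
      have h4 : ∑ l : Fin (X.dim + 1), pairingInv X (Sum.inr a) (Sum.inl l) •
        (ser (cor F 0 [(Sum.inl l, 0), (Sum.inr v, 0), (Sum.inl j, 0)]) *
          ser (cor F 0 [(Sum.inl i, 0), (Sum.inr a, 0), (Sum.inr w, 0)])) = 0 := by
        refine Finset.sum_eq_zero fun l _ => ?_
        rw [cor_one' hF h1, zero_mul, smul_zero]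
      rw [h4, zero_add]
      refine Finset.sum_congr rfl fun b _ => ?_
      rw [cor_prim h1, cor_prim'' hF h1, smul_mul_smul_comm, smul_smul, mul_comm (lamc h1 j)]
      congr 1
      change (Matrix.of X.form)⁻¹ a b * _ = _
      ring
    rw [Finset.sum_congr rfl fun a _ => h3 a]
    simp only [← Finset.sum_smul]
    congr 1
    simp only [← Finset.sum_mul]
    have h5 : ∀ a, ∑ b, (Matrix.of X.form)⁻¹ a b * X.form b v = if a = v then 1 else 0 := by
      intro a
      have := congrFun (congrFun (form_inv_mul X) a) v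
      rw [Matrix.mul_apply, Matrix.one_apply] at this
      exact this
    simp only [h5]
    simp
  rw [e3, e4] at e1
  have e5 := congrArg (fun z => (X.form v w)⁻¹ • z) e1
  simp only [inv_smul_smul₀ hvw] at e5
  exact e5.symm

/-- **[c8]** from WDVV with four primitive classes -/
theorem lamc_isotropic (hF : IsGW X F) (h1 : IsGenusOne F) (v : X.Prim)
    (hv : 2 * X.hodgeP v ≠ X.dim) :
    ∑ i, ∑ j, pairingInv X (Sum.inl i) (Sum.inl j) • (lamc h1 i * lamc h1 j) = 0 := by
  obtain ⟨w, hvw⟩ := exists_form_ne v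
  have hvv : X.form v v = 0 := by
    by_contra h
    exact hv (by have := X.form_hodge v v h; omega)
  have hwv : X.form w v ≠ 0 := by
    rw [X.form_symm w v]
    exact mul_ne_zero (pow_ne_zero _ (by norm_num)) hvw
  have e0 : ∀ a x y z : X.Prim, WD F (Sum.inr a) (Sum.inr x) (Sum.inr y) (Sum.inr z) =
      (X.form x y * X.form a z) •
        ∑ i, ∑ j, pairingInv X (Sum.inl i) (Sum.inl j) • (lamc h1 i * lamc h1 j) := by
    intro a x y z
    rw [WD, Fintype.sum_sum_type]
    have h2 : ∑ u : X.Prim, ∑ β, pairingInv X (Sum.inr u) β •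
        (ser (cor F 0 [(β, 0), (Sum.inr x, 0), (Sum.inr y, 0)]) *
          ser (cor F 0 [(Sum.inr a, 0), (Sum.inr u, 0), (Sum.inr z, 0)])) = 0 := by
      refine Finset.sum_eq_zero fun u _ => Finset.sum_eq_zero fun β _ => ?_
      rw [cor_three h1, mul_zero, smul_zero]
    rw [h2, add_zero, Finset.smul_sum]
    refine Finset.sum_congr rfl fun i _ => ?_
    rw [Fintype.sum_sum_type]
    have h4 : ∑ u : X.Prim, pairingInv X (Sum.inl i) (Sum.inr u) •
        (ser (cor F 0 [(Sum.inr u, 0), (Sum.inr x, 0), (Sum.inr y, 0)]) *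
          ser (cor F 0 [(Sum.inr a, 0), (Sum.inl i, 0), (Sum.inr z, 0)])) = 0 := by
      refine Finset.sum_eq_zero fun u _ => ?_
      rw [cor_three h1, zero_mul, smul_zero]
    rw [h4, add_zero, Finset.smul_sum]
    refine Finset.sum_congr rfl fun j _ => ?_
    rw [cor_prim'' hF h1, cor_prim' hF h1, smul_mul_smul_comm, smul_comm, mul_comm (lamc h1 j)]
  have e1 := WD_swap hF (Sum.inr v) (Sum.inr w) (Sum.inr v) (Sum.inr w)
  rw [e0, e0, hvv, mul_zero, zero_smul, smul_zero] at e1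
  have e5 := congrArg (fun z => (X.form w v * X.form v w)⁻¹ • z) e1
  simpa only [inv_smul_smul₀ (mul_ne_zero hwv hvw), smul_zero] using e5

end Vale.Agent.P269.G1.H410
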