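import Vale.Agent.P269.G1.ZSpec
import Vale.Agent.P269.G1.H598.Cor
import Vale.Agent.P269.G1.H410.LamcMul

/-!
# [ZB2] topological recursion for the two-point functions
-/

namespace Vale.Agent.P269.G1.H410

open Finset.HasAntidiagonal (antidiagonal)
open Vale.Agent.P269.CI Vale.Agent.P269.G1

variable {X : CompleteIntersection} {F : ℕ → ℕ → List (Ins X) → ℂ}

variable (hF : IsGW X F) (h1 : IsGenusOne F)

lemma mkEnd_apply (M : Fin (X.dim + 1) → Fin (X.dim + 1) → RR X) (x : AA hF h1)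
    (k : Fin (X.dim + 1)) : (mkEnd hF h1 M x : AA hF h1) k = ∑ i, x i * M i k := rfl

lemma mkEnd_bas (M : Fin (X.dim + 1) → Fin (X.dim + 1) → RR X) (a k : Fin (X.dim + 1)) :
    (mkEnd hF h1 M (QA.bas _ a) : AA hF h1) k = M a k := by
  rw [mkEnd_apply, Finset.sum_eq_single a]
  · rw [QA.bas_apply, if_pos rfl, one_mul]
  · intro b _ hb
    rw [QA.bas_apply, if_neg hb, zero_mul]
  · simp

lemma SS_zero_bas (a i : Fin (X.dim + 1)) :
    ((SS hF h1 0).1 (QA.bas _ a) : AA hF h1) i = if i = a then 1 else 0 := by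
  change (QA.bas _ a : AA hF h1) i = _
  rw [QA.bas_apply]

lemma SS_succ_bas (m : ℕ) (a i : Fin (X.dim + 1)) :
    ((SS hF h1 (m + 1)).1 (QA.bas _ a) : AA hF h1) i =
      ∑ b : Fin (X.dim + 1), pairingInv X (Sum.inl b) (Sum.inl i) •
        W F (Sum.inl a, m) (Sum.inl b, 0) := by
  rw [SS]
  exact mkEnd_bas hF h1 _ a i

include hF h1 in
lemma W_mixed (a : Fin (X.dim + 1)) (v : X.Prim) (m n : ℕ) :
    ser (cor F 0 [(Sum.inl a, m), (Sum.inr v, n)]) = 0 := by
  have e1 := H598.cor_swap hF 0 [] [] (Sum.inl a, m) (Sum.inr v, n) (Or.inl rfl)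
  simp only [List.nil_append] at e1
  rw [e1]
  refine H598.cor_prim h1 0 v n _ ?_
  intro x hx
  rcases List.mem_cons.1 hx with h | h
  · exact ⟨a, by rw [h]⟩
  · simp at h

/-- topological recursion, ambient class -/
lemma trrS (a : Fin (X.dim + 1)) (m : ℕ) (y z : Ins X) :
    ser (cor F 0 [(Sum.inl a, m), y, z]) = ∑ i, ((SS hF h1 m).1 (QA.bas _ a) : AA hF h1) i *
      ser (cor F 0 [hpow X i, y, z]) := by
  cases m with
  | zero =>
    rw [Finset.sum_eq_single a]
    · rw [SS_zero_bas, if_pos rfl, one_mul]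
      rfl
    · intro b _ hb
      rw [SS_zero_bas, if_neg hb, zero_mul]
    · simp
  | succ m =>
    rw [H598.trr_ser hF (Sum.inl a) m y z, Fintype.sum_sum_type]
    have h2 : ∑ v : X.Prim, ∑ β, pairingInv X (Sum.inr v) β •
        (ser (cor F 0 [(β, 0), y, z]) * ser (cor F 0 [(Sum.inl a, m), (Sum.inr v, 0)])) = 0 := by
      refine Finset.sum_eq_zero fun v _ => Finset.sum_eq_zero fun β _ => ?_
      rw [W_mixed hF h1, mul_zero, smul_zero]
    rw [h2, add_zero]
    have h3 : ∀ l : Fin (X.dim + 1), ∑ β, pairingInv X (Sum.inl l) β •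
        (ser (cor F 0 [(β, 0), y, z]) * ser (cor F 0 [(Sum.inl a, m), (Sum.inl l, 0)])) =
        ∑ k : Fin (X.dim + 1), pairingInv X (Sum.inl l) (Sum.inl k) •
          (ser (cor F 0 [hpow X k, y, z]) * ser (cor F 0 [(Sum.inl a, m), (Sum.inl l, 0)])) := by
      intro l
      rw [Fintype.sum_sum_type]
      have h4 : ∑ v : X.Prim, pairingInv X (Sum.inl l) (Sum.inr v) •
        (ser (cor F 0 [(Sum.inr v, 0), y, z]) *
          ser (cor F 0 [(Sum.inl a, m), (Sum.inl l, 0)])) = 0 := by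
        refine Finset.sum_eq_zero fun v _ => ?_
        have h7 : pairingInv X (Sum.inl l) (Sum.inr v) = 0 := rfl
        rw [h7, zero_smul]
      rw [h4, add_zero]
      rfl
    rw [Finset.sum_congr rfl fun l _ => h3 l, Finset.sum_comm]
    refine Finset.sum_congr rfl fun k _ => ?_
    rw [SS_succ_bas, Finset.sum_mul]
    refine Finset.sum_congr rfl fun l _ => ?_
    rw [smul_mul_assoc, W, mul_comm]

/-- the two-point function of primitive classes -/
lemma W_prim (v w : X.Prim) (m n : ℕ) :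
    ser (cor F 0 [(Sum.inr v, m), (Sum.inr w, n)]) =
      X.form v w • Vale.Agent.P269.G1.Lam h1 m n := by
  rw [Vale.Agent.P269.G1.Lam, ← ser_smul]
  exact ser_congr fun d L => Classical.choose_spec h1.mono2 d v w m n _ (isAmb_map L)

/-- topological recursion, primitive class -/
lemma trrS_prim (v : X.Prim) (m : ℕ) (y z : Ins X) :
    ser (cor F 0 [(Sum.inr v, m), y, z]) = (SS hF h1 m).2 v *
      ser (cor F 0 [(Sum.inr v, 0), y, z]) := by
  cases m with
  | zero =>
    change _ = 1 * _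
    rw [one_mul]
  | succ m =>
    rw [H598.trr_ser hF (Sum.inr v) m y z, Fintype.sum_sum_type]
    have h2 : ∑ l : Fin (X.dim + 1), ∑ β, pairingInv X (Sum.inl l) β •
        (ser (cor F 0 [(β, 0), y, z]) * ser (cor F 0 [(Sum.inr v, m), (Sum.inl l, 0)])) = 0 := by
      refine Finset.sum_eq_zero fun l _ => Finset.sum_eq_zero fun β _ => ?_
      rw [H598.cor_prim h1 0 v m, mul_zero, smul_zero]
      intro x hx
      rcases List.mem_cons.1 hx with h | h
      · exact ⟨l, by rw [h]⟩
      · simp at h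
    rw [h2, zero_add]
    have h3 : ∀ u : X.Prim, ∑ β, pairingInv X (Sum.inr u) β •
        (ser (cor F 0 [(β, 0), y, z]) * ser (cor F 0 [(Sum.inr v, m), (Sum.inr u, 0)])) =
        ∑ b : X.Prim, (X.form v u * (Matrix.of X.form)⁻¹ u b) •
          (Vale.Agent.P269.G1.Lam h1 m 0 * ser (cor F 0 [(Sum.inr b, 0), y, z])) := by
      intro u
      rw [Fintype.sum_sum_type]
      have h4 : ∑ l : Fin (X.dim + 1), pairingInv X (Sum.inr u) (Sum.inl l) •
        (ser (cor F 0 [(Sum.inl l, 0), y, z]) *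
          ser (cor F 0 [(Sum.inr v, m), (Sum.inr u, 0)])) = 0 := by
        refine Finset.sum_eq_zero fun l _ => ?_
        have h7 : pairingInv X (Sum.inr u) (Sum.inl l) = 0 := rfl
        rw [h7, zero_smul]
      rw [h4, zero_add]
      refine Finset.sum_congr rfl fun b _ => ?_
      have h7 : pairingInv X (Sum.inr u) (Sum.inr b) = (Matrix.of X.form)⁻¹ u b := rfl
      rw [W_prim h1, mul_smul_comm, smul_smul, h7, mul_comm (X.form v u),
        mul_comm (Vale.Agent.P269.G1.Lam h1 m 0)]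
    rw [Finset.sum_congr rfl fun u _ => h3 u, Finset.sum_comm]
    simp only [← Finset.sum_smul]
    have h5 : ∀ b, ∑ u, X.form v u * (Matrix.of X.form)⁻¹ u b = if v = b then 1 else 0 := by
      intro b
      have h6 : Matrix.of X.form * (Matrix.of X.form)⁻¹ = 1 :=
        Matrix.mul_nonsing_inv _ (isUnit_iff_ne_zero.2 X.form_nondeg)
      have := congrFun (congrFun h6 v) b
      rw [Matrix.mul_apply, Matrix.one_apply] at this
      exact this
    simp only [h5]
    rw [Finset.sum_eq_single v]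
    · rw [if_pos rfl, one_smul]
      rfl
    · intro b _ hb
      rw [if_neg (Ne.symm hb), zero_smul]
    · simp

/-- **[ZB2]** topological recursion: `∂_x W = (x * S_m a, S_n b)` for ambient `a`, `b` -/
theorem W_trr (x a b : Fin (X.dim + 1)) (m n : ℕ) :
    ser (cor F 0 [hpow X x, (Sum.inl a, m), (Sum.inl b, n)]) =
      ∑ i, ∑ j, ((SS hF h1 m).1 (QA.bas _ a) : AA hF h1) i *
        ((SS hF h1 n).1 (QA.bas _ b) : AA hF h1) j *
          ser (cor F 0 [hpow X x, hpow X i, hpow X j]) := by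
  have e1 := H598.cor_swap hF 0 [] [(Sum.inl b, n)] (hpow X x) (Sum.inl a, m) (Or.inl rfl)
  simp only [List.nil_append] at e1
  rw [e1, trrS hF h1]
  refine Finset.sum_congr rfl fun i _ => ?_
  have e2 := H598.cor_swap hF 0 [hpow X i] [] (hpow X x) (Sum.inl b, n) (Or.inl rfl)
  have e3 := H598.cor_swap hF 0 [] [hpow X x] (hpow X i) (Sum.inl b, n) (Or.inl rfl)
  simp only [List.nil_append, List.cons_append] at e2 e3
  rw [e2, e3, trrS hF h1, Finset.mul_sum]
  refine Finset.sum_congr rfl fun j _ => ?_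
  rw [mul_assoc]
  congr 2
  have e4 := H598.cor_swap hF 0 [] [hpow X x] (hpow X j) (hpow X i) (Or.inl rfl)
  have e5 := H598.cor_swap hF 0 [hpow X i] [] (hpow X j) (hpow X x) (Or.inl rfl)
  have e6 := H598.cor_swap hF 0 [] [hpow X j] (hpow X i) (hpow X x) (Or.inl rfl)
  simp only [List.nil_append, List.cons_append] at e4 e5 e6
  rw [e4, e5, e6]

/-- **[ZB2']** the same for primitive classes -/
theorem W_trr_prim (x : Fin (X.dim + 1)) (v w : X.Prim) (m n : ℕ) :
    ser (cor F 0 [hpow X x, (Sum.inr v, m), (Sum.inr w, n)]) =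
      X.form v w • ((SS hF h1 m).2 v * (SS hF h1 n).2 v * lamc h1 x) := by
  have e1 := H598.cor_swap hF 0 [] [(Sum.inr w, n)] (hpow X x) (Sum.inr v, m) (Or.inl rfl)
  simp only [List.nil_append] at e1
  rw [e1, trrS_prim hF h1]
  have e2 := H598.cor_swap hF 0 [(Sum.inr v, 0)] [] (hpow X x) (Sum.inr w, n) (Or.inl rfl)
  simp only [List.nil_append, List.cons_append] at e2
  have e3 : ∀ n, ser (cor F 0 [(Sum.inr v, 0), (Sum.inr w, n), hpow X x]) =
      sgn (par X (Sum.inr v)) (par X (Sum.inr w)) •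
        ser (cor F 0 [(Sum.inr w, n), (Sum.inr v, 0), hpow X x]) := by
    intro n
    rw [← ser_smul]
    exact ser_congr fun d L => hF.symm 0 d [] (hpow X x :: L.map (hpow X)) (Sum.inr v, 0)
      (Sum.inr w, n)
  rw [e2, e3, trrS_prim hF h1 w n, ← mul_smul_comm, ← mul_smul_comm, ← e3 0]
  have e4 : ser (cor F 0 [(Sum.inr v, 0), (Sum.inr w, 0), hpow X x]) =
      X.form v w • lamc h1 x := cor_prim h1 v w x
  have e5 : (SS hF h1 n).2 w = (SS hF h1 n).2 v := by
    cases n with
    | zero => rfl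
    | succ n => rfl
  rw [e4, e5, mul_assoc, mul_smul_comm, mul_smul_comm]

end Vale.Agent.P269.G1.H410
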